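import Vale.Agent.P207.BlkL0

/-!
# P207, block JT: the determinant of the Jacobi tensor and the trace of the Riccati solution
-/

open scoped Topology Matrix
open Set Filter MeasureTheory

noncomputable section

namespace Vale.Agent.P207.Q.DetU

variable {κ : Type} [Fintype κ] [DecidableEq κ]

/-- entrywise derivative of a matrix function -/
def MD (M : ℝ → Matrix κ κ ℝ) (M' : Matrix κ κ ℝ) (t : ℝ) : Prop :=
  ∀ i j, HasDerivAt (fun s => M s i j) (M' i j) t

omit [DecidableEq κ] in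
theorem MD.mul {M N : ℝ → Matrix κ κ ℝ} {M' N' : Matrix κ κ ℝ} {t : ℝ} (h : MD M M' t)
    (h' : MD N N' t) : MD (fun s => M s * N s) (M' * N t + M t * N') t := by
  intro i j
  have h1 := HasDerivAt.fun_sum (u := Finset.univ) (A := fun k s => M s i k * N s k j)
    (A' := fun k => M' i k * N t k j + M t i k * N' k j) (x := t)
    (fun k _ => (h i k).fun_mul (h' k j))
  have e : (fun s => (M s * N s) i j) = fun s => ∑ k, M s i k * N s k j := by
    funext s; rw [Matrix.mul_apply]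
  rw [e]
  refine h1.congr_deriv ?_
  rw [Matrix.add_apply, Matrix.mul_apply, Matrix.mul_apply, ← Finset.sum_add_distrib]

omit [Fintype κ] [DecidableEq κ] in
theorem MD.sub {M N : ℝ → Matrix κ κ ℝ} {M' N' : Matrix κ κ ℝ} {t : ℝ} (h : MD M M' t)
    (h' : MD N N' t) : MD (fun s => M s - N s) (M' - N') t :=
  fun i j => (h i j).fun_sub (h' i j)

omit [Fintype κ] [DecidableEq κ] in
theorem MD.transpose {M : ℝ → Matrix κ κ ℝ} {M' : Matrix κ κ ℝ} {t : ℝ} (h : MD M M' t) :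
    MD (fun s => (M s)ᵀ) M'ᵀ t := fun i j => h j i

omit [Fintype κ] [DecidableEq κ] in
theorem MD.congr {M : ℝ → Matrix κ κ ℝ} {M' N' : Matrix κ κ ℝ} {t : ℝ} (h : MD M M' t)
    (e : M' = N') : MD M N' t := e ▸ h

omit [DecidableEq κ] in
theorem MD.quad {M : ℝ → Matrix κ κ ℝ} {M' : Matrix κ κ ℝ} {t : ℝ} (h : MD M M' t)
    (x y : κ → ℝ) : HasDerivAt (fun s => x ⬝ᵥ (M s *ᵥ y)) (x ⬝ᵥ (M' *ᵥ y)) t := by
  have h1 := HasDerivAt.fun_sum (u := Finset.univ) (A := fun i s => x i * (M s *ᵥ y) i)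
    (A' := fun i => x i * (M' *ᵥ y) i) (x := t)
    (fun i _ => by
      have h2 := HasDerivAt.fun_sum (u := Finset.univ) (A := fun j s => M s i j * y j)
        (A' := fun j => M' i j * y j) (x := t) (fun j _ => (h i j).mul_const (y j))
      exact h2.const_mul (x i))
  exact h1

/-- determinant bounds from quadratic form bounds -/
theorem det_le_pow {P : Matrix κ κ ℝ} (hP : P.IsHermitian) {C : ℝ}
    (h0 : ∀ x, 0 ≤ x ⬝ᵥ (P *ᵥ x)) (h : ∀ x, x ⬝ᵥ (P *ᵥ x) ≤ C * (x ⬝ᵥ x)) :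
    P.det ≤ C ^ Fintype.card κ := by
  rw [hP.det_eq_prod_eigenvalues]
  have key : ∀ i, 0 ≤ hP.eigenvalues i ∧ hP.eigenvalues i ≤ C := by
    intro i
    set v : κ → ℝ := (hP.eigenvectorBasis i).ofLp with hv
    have h1 := hP.mulVec_eigenvectorBasis i
    have h2 : v ⬝ᵥ v = 1 := by
      have h3 := hP.eigenvectorBasis.orthonormal.1 i
      have h4 : ‖hP.eigenvectorBasis i‖ ^ 2 = 1 := by rw [h3]; norm_num
      rw [EuclideanSpace.norm_sq_eq] at h4
      simpa [dotProduct, hv, sq] using h4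
    have h3 : v ⬝ᵥ (P *ᵥ v) = hP.eigenvalues i := by
      rw [hv, h1, ← hv, dotProduct_smul, h2, smul_eq_mul, mul_one]
    refine ⟨h3 ▸ h0 v, ?_⟩
    have := h v
    rw [h3, h2, mul_one] at this
    exact this
  calc ((∏ i, hP.eigenvalues i : ℝ)) ≤ ∏ _i : κ, C :=
        Finset.prod_le_prod (fun i _ => (key i).1) (fun i _ => (key i).2)
    _ = C ^ Fintype.card κ := by simp

theorem pow_le_det {P : Matrix κ κ ℝ} (hP : P.IsHermitian) {c : ℝ} (hc : 0 ≤ c)
    (h : ∀ x, c * (x ⬝ᵥ x) ≤ x ⬝ᵥ (P *ᵥ x)) :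
    c ^ Fintype.card κ ≤ P.det := by
  rw [hP.det_eq_prod_eigenvalues]
  have key : ∀ i, c ≤ hP.eigenvalues i := by
    intro i
    set v : κ → ℝ := (hP.eigenvectorBasis i).ofLp with hv
    have h1 := hP.mulVec_eigenvectorBasis i
    have h2 : v ⬝ᵥ v = 1 := by
      have h3 := hP.eigenvectorBasis.orthonormal.1 i
      have h4 : ‖hP.eigenvectorBasis i‖ ^ 2 = 1 := by rw [h3]; norm_num
      rw [EuclideanSpace.norm_sq_eq] at h4
      simpa [dotProduct, hv, sq] using h4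
    have h3 : v ⬝ᵥ (P *ᵥ v) = hP.eigenvalues i := by
      rw [hv, h1, ← hv, dotProduct_smul, h2, smul_eq_mul, mul_one]
    have := h v
    rw [h3, h2, mul_one] at this
    exact this
  calc c ^ Fintype.card κ = ∏ _i : κ, c := by simp
    _ ≤ ∏ i, hP.eigenvalues i := Finset.prod_le_prod (fun _ _ => hc) (fun i _ => key i)

/-- the data along an orbit -/
structure Dat (K U A A' : ℝ → Matrix κ κ ℝ) (lam Lam : ℝ) : Prop where
  dU : ∀ t, MD U (K t - U t * U t) t
  symm : ∀ t, (U t)ᵀ = U t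
  lo : ∀ t x, lam * (x ⬝ᵥ x) ≤ x ⬝ᵥ (U t *ᵥ x)
  hi : ∀ t x, x ⬝ᵥ (U t *ᵥ x) ≤ Lam * (x ⬝ᵥ x)
  A0 : A 0 = 0
  A'0 : A' 0 = 1
  dA : ∀ t, MD A (A' t) t
  dA' : ∀ t, MD A' (K t * A t) t

namespace Dat

variable {K U A A' : ℝ → Matrix κ κ ℝ} {lam Lam : ℝ}

/-- `W = A' - U A` -/
def W (U A A' : ℝ → Matrix κ κ ℝ) (t : ℝ) : Matrix κ κ ℝ := A' t - U t * A t

/-- `P = Wᵀ A` -/
def P (U A A' : ℝ → Matrix κ κ ℝ) (t : ℝ) : Matrix κ κ ℝ := (W U A A' t)ᵀ * A t

theorem W0 (h : Dat K U A A' lam Lam) : W U A A' 0 = 1 := by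
  simp [W, h.A0, h.A'0]

theorem P0 (h : Dat K U A A' lam Lam) : P U A A' 0 = 0 := by
  simp [P, h.A0]

theorem dW (h : Dat K U A A' lam Lam) (t : ℝ) : MD (W U A A') (-(U t) * W U A A' t) t := by
  refine ((h.dA' t).sub ((h.dU t).mul (h.dA t))).congr ?_
  rw [W]
  noncomm_ring

theorem dP (h : Dat K U A A' lam Lam) (t : ℝ) :
    MD (P U A A') ((W U A A' t)ᵀ * W U A A' t) t := by
  refine ((h.dW t).transpose.mul (h.dA t)).congr ?_
  have e : A' t = W U A A' t + U t * A t := by rw [W]; abel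
  rw [Matrix.transpose_mul, Matrix.transpose_neg, h.symm]
  rw [e]
  noncomm_ring

theorem P_symm (h : Dat K U A A' lam Lam) (t : ℝ) : (P U A A' t)ᵀ = P U A A' t := by
  ext i j
  have h1 : ∀ s, HasDerivAt (fun s => (P U A A' s)ᵀ i j - P U A A' s i j) 0 s := by
    intro s
    have h2 := ((h.dP s).transpose i j).fun_sub (h.dP s i j)
    refine h2.congr_deriv ?_
    rw [Matrix.transpose_mul, Matrix.transpose_transpose, sub_self]
  have h3 := is_const_of_deriv_eq_zero (fun s => (h1 s).differentiableAt)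
    (fun s => (h1 s).deriv) t 0
  simp only [h.P0] at h3
  simpa [sub_eq_zero] using h3

/-- the determinant formula -/
theorem det_W (h : Dat K U A A' lam Lam) (hc : Continuous fun s => (U s).trace) (t : ℝ) :
    (W U A A' t).det = Real.exp (- ∫ s in (0:ℝ)..t, (U s).trace) := by
  have h1 : ∀ s, HasDerivAt (fun s => (W U A A' s).det) (-(U s).trace * (W U A A' s).det) s := by
    intro s
    have := hasDerivAt_matDet_left (h.dW s)
    rwa [Matrix.trace_neg] at this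
  have h2 : ∀ s, HasDerivAt (fun s => ∫ r in (0:ℝ)..s, (U r).trace) (U s).trace s :=
    fun s => intervalIntegral.integral_hasDerivAt_right (hc.intervalIntegrable _ _)
      (hc.stronglyMeasurableAtFilter _ _) hc.continuousAt
  have h3 : ∀ s, HasDerivAt (fun s => (W U A A' s).det *
      Real.exp (∫ r in (0:ℝ)..s, (U r).trace)) 0 s := by
    intro s
    refine ((h1 s).fun_mul (h2 s).exp).congr_deriv ?_
    ring
  have h4 := is_const_of_deriv_eq_zero (fun s => (h3 s).differentiableAt)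
    (fun s => (h3 s).deriv) t 0
  simp only [h.W0, Matrix.det_one, intervalIntegral.integral_same, Real.exp_zero, mul_one] at h4
  rw [Real.exp_neg]
  exact eq_inv_of_mul_eq_one_left h4

theorem det_A (h : Dat K U A A' lam Lam) (hc : Continuous fun s => (U s).trace) (t : ℝ) :
    (A t).det = (P U A A' t).det * Real.exp (∫ s in (0:ℝ)..t, (U s).trace) := by
  rw [P, Matrix.det_mul, Matrix.det_transpose, h.det_W hc, mul_right_comm, ← Real.exp_add,
    neg_add_cancel, Real.exp_zero, one_mul]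

/-- `|W x|²` -/
def q (U A A' : ℝ → Matrix κ κ ℝ) (x : κ → ℝ) (t : ℝ) : ℝ :=
  x ⬝ᵥ (((W U A A' t)ᵀ * W U A A' t) *ᵥ x)

omit [DecidableEq κ] in
theorem q_eq (x : κ → ℝ) (t : ℝ) :
    q U A A' x t = (W U A A' t *ᵥ x) ⬝ᵥ (W U A A' t *ᵥ x) := by
  rw [q, ← Matrix.mulVec_mulVec, Matrix.dotProduct_mulVec, Matrix.vecMul_transpose]

theorem dq (h : Dat K U A A' lam Lam) (x : κ → ℝ) (t : ℝ) :
    HasDerivAt (q U A A' x) (- (2 * ((W U A A' t *ᵥ x) ⬝ᵥ (U t *ᵥ (W U A A' t *ᵥ x))))) t := by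
  have h1 := ((h.dW t).transpose.mul (h.dW t)).quad x x
  refine h1.congr_deriv ?_
  rw [Matrix.transpose_mul, Matrix.transpose_neg, h.symm]
  have e : (W U A A' t)ᵀ * -(U t) * W U A A' t + (W U A A' t)ᵀ * (-(U t) * W U A A' t) =
      -((2 : ℝ) • ((W U A A' t)ᵀ * (U t * W U A A' t))) := by
    rw [two_smul]
    noncomm_ring
  rw [e, Matrix.neg_mulVec, dotProduct_neg, Matrix.smul_mulVec, dotProduct_smul, smul_eq_mul,
    ← Matrix.mulVec_mulVec, Matrix.dotProduct_mulVec x, Matrix.vecMul_transpose,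
    Matrix.mulVec_mulVec]

theorem q0 (h : Dat K U A A' lam Lam) (x : κ → ℝ) : q U A A' x 0 = x ⬝ᵥ x := by
  rw [q, h.W0]; simp

theorem q_le (h : Dat K U A A' lam Lam) (x : κ → ℝ) {t : ℝ} (ht : 0 ≤ t) :
    q U A A' x t ≤ Real.exp (-(2 * lam) * t) * (x ⬝ᵥ x) := by
  have h1 : ∀ s, HasDerivAt (fun s => q U A A' x s * Real.exp (2 * lam * s))
      ((- (2 * ((W U A A' s *ᵥ x) ⬝ᵥ (U s *ᵥ (W U A A' s *ᵥ x)))) +
        2 * lam * q U A A' x s) * Real.exp (2 * lam * s)) s := by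
    intro s
    have h2 : HasDerivAt (fun s => 2 * lam * s) (2 * lam) s := by
      simpa using (hasDerivAt_id s).const_mul (2 * lam)
    refine ((h.dq x s).fun_mul h2.exp).congr_deriv ?_
    ring
  have h3 : Antitone (fun s => q U A A' x s * Real.exp (2 * lam * s)) := by
    refine antitone_of_deriv_nonpos (fun s => (h1 s).differentiableAt) fun s => ?_
    rw [(h1 s).deriv]
    refine mul_nonpos_of_nonpos_of_nonneg ?_ (Real.exp_pos _).le
    have := h.lo s (W U A A' s *ᵥ x)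
    rw [q_eq]
    linarith
  have h4 := h3 ht
  simp only [h.q0, mul_zero, Real.exp_zero, mul_one] at h4
  have h5 : Real.exp (-(2 * lam) * t) * Real.exp (2 * lam * t) = 1 := by
    rw [← Real.exp_add]; simp
  have h6 := mul_le_mul_of_nonneg_left h4 (Real.exp_pos (-(2 * lam) * t)).le
  calc q U A A' x t = Real.exp (-(2 * lam) * t) * (q U A A' x t * Real.exp (2 * lam * t)) := by
        rw [mul_comm (q U A A' x t), ← mul_assoc, h5, one_mul]
    _ ≤ _ := h6

theorem le_q (h : Dat K U A A' lam Lam) (x : κ → ℝ) {t : ℝ} (ht : 0 ≤ t) :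
    Real.exp (-(2 * Lam) * t) * (x ⬝ᵥ x) ≤ q U A A' x t := by
  have h1 : ∀ s, HasDerivAt (fun s => q U A A' x s * Real.exp (2 * Lam * s))
      ((- (2 * ((W U A A' s *ᵥ x) ⬝ᵥ (U s *ᵥ (W U A A' s *ᵥ x)))) +
        2 * Lam * q U A A' x s) * Real.exp (2 * Lam * s)) s := by
    intro s
    have h2 : HasDerivAt (fun s => 2 * Lam * s) (2 * Lam) s := by
      simpa using (hasDerivAt_id s).const_mul (2 * Lam)
    refine ((h.dq x s).fun_mul h2.exp).congr_deriv ?_
    ring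
  have h3 : Monotone (fun s => q U A A' x s * Real.exp (2 * Lam * s)) := by
    refine monotone_of_deriv_nonneg (fun s => (h1 s).differentiableAt) fun s => ?_
    rw [(h1 s).deriv]
    refine mul_nonneg ?_ (Real.exp_pos _).le
    have := h.hi s (W U A A' s *ᵥ x)
    rw [q_eq]
    linarith
  have h4 := h3 ht
  simp only [h.q0, mul_zero, Real.exp_zero, mul_one] at h4
  have h5 : Real.exp (-(2 * Lam) * t) * Real.exp (2 * Lam * t) = 1 := by
    rw [← Real.exp_add]; simp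
  have h6 := mul_le_mul_of_nonneg_left h4 (Real.exp_pos (-(2 * Lam) * t)).le
  calc _ ≤ Real.exp (-(2 * Lam) * t) * (q U A A' x t * Real.exp (2 * Lam * t)) := h6
    _ = q U A A' x t := by rw [mul_comm (q U A A' x t), ← mul_assoc, h5, one_mul]

theorem dPq (h : Dat K U A A' lam Lam) (x : κ → ℝ) (t : ℝ) :
    HasDerivAt (fun s => x ⬝ᵥ (P U A A' s *ᵥ x)) (q U A A' x t) t := (h.dP t).quad x x

omit [DecidableEq κ] in
theorem dot_self_nonneg' (x : κ → ℝ) : 0 ≤ x ⬝ᵥ x := by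
  rw [dotProduct]
  exact Finset.sum_nonneg fun i _ => mul_self_nonneg _

theorem P_nonneg (h : Dat K U A A' lam Lam) (x : κ → ℝ) {t : ℝ} (ht : 0 ≤ t) :
    0 ≤ x ⬝ᵥ (P U A A' t *ᵥ x) := by
  have h3 : Monotone (fun s => x ⬝ᵥ (P U A A' s *ᵥ x)) := by
    refine monotone_of_deriv_nonneg (fun s => (h.dPq x s).differentiableAt) fun s => ?_
    rw [(h.dPq x s).deriv, q_eq]
    exact dot_self_nonneg' _
  have := h3 ht
  simpa [h.P0] using this

theorem P_le (h : Dat K U A A' lam Lam) (hl : 0 < lam) (x : κ → ℝ) {t : ℝ} (ht : 0 ≤ t) :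
    x ⬝ᵥ (P U A A' t *ᵥ x) ≤ (2 * lam)⁻¹ * (x ⬝ᵥ x) := by
  -- `x·Px + e^{-2 lam s}/(2 lam) |x|²` is antitone on `[0,∞)`
  have h1 : ∀ s, HasDerivAt (fun s => x ⬝ᵥ (P U A A' s *ᵥ x) +
      (2 * lam)⁻¹ * (Real.exp (-(2 * lam) * s) * (x ⬝ᵥ x)))
      (q U A A' x s - Real.exp (-(2 * lam) * s) * (x ⬝ᵥ x)) s := by
    intro s
    have h2 : HasDerivAt (fun s => -(2 * lam) * s) (-(2 * lam)) s := by
      simpa using (hasDerivAt_id s).const_mul (-(2 * lam))
    refine ((h.dPq x s).fun_add ((h2.exp.mul_const (x ⬝ᵥ x)).const_mul (2 * lam)⁻¹)).congr_deriv ?_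
    field_simp
    ring
  have h3 : AntitoneOn (fun s => x ⬝ᵥ (P U A A' s *ᵥ x) +
      (2 * lam)⁻¹ * (Real.exp (-(2 * lam) * s) * (x ⬝ᵥ x))) (Ici 0) := by
    refine antitoneOn_of_deriv_nonpos (convex_Ici 0)
      (fun s _ => (h1 s).continuousAt.continuousWithinAt)
      (fun s _ => (h1 s).differentiableAt.differentiableWithinAt) fun s hs => ?_
    rw [interior_Ici] at hs
    rw [(h1 s).deriv]
    have := h.q_le x (le_of_lt hs)
    linarith
  have h4 := h3 (mem_Ici.2 le_rfl) (mem_Ici.2 ht) ht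
  simp only [h.P0, Matrix.zero_mulVec, dotProduct_zero, mul_zero, Real.exp_zero, one_mul,
    zero_add] at h4
  have h5 : 0 ≤ (2 * lam)⁻¹ * (Real.exp (-(2 * lam) * t) * (x ⬝ᵥ x)) :=
    mul_nonneg (by positivity) (mul_nonneg (Real.exp_pos _).le (dot_self_nonneg' x))
  linarith

theorem P_le' (h : Dat K U A A' lam Lam) (hl : 0 ≤ lam) (x : κ → ℝ) {t : ℝ} (ht : 0 ≤ t) :
    x ⬝ᵥ (P U A A' t *ᵥ x) ≤ t * (x ⬝ᵥ x) := by
  have h1 : ∀ s, HasDerivAt (fun s => x ⬝ᵥ (P U A A' s *ᵥ x) - s * (x ⬝ᵥ x))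
      (q U A A' x s - 1 * (x ⬝ᵥ x)) s := by
    intro s
    exact (h.dPq x s).fun_sub ((hasDerivAt_id' s).mul_const (x ⬝ᵥ x))
  have h3 : AntitoneOn (fun s => x ⬝ᵥ (P U A A' s *ᵥ x) - s * (x ⬝ᵥ x)) (Ici 0) := by
    refine antitoneOn_of_deriv_nonpos (convex_Ici 0)
      (fun s _ => (h1 s).continuousAt.continuousWithinAt)
      (fun s _ => (h1 s).differentiableAt.differentiableWithinAt) fun s hs => ?_
    rw [interior_Ici] at hs
    rw [(h1 s).deriv]
    have h5 := h.q_le x (le_of_lt hs)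
    have h6 : Real.exp (-(2 * lam) * s) ≤ 1 := by
      rw [Real.exp_le_one_iff]
      have := mul_nonneg (mul_nonneg zero_le_two hl) (le_of_lt hs)
      linarith
    have h7 := mul_le_mul_of_nonneg_right h6 (dot_self_nonneg' x)
    linarith
  have h4 := h3 (mem_Ici.2 le_rfl) (mem_Ici.2 ht) ht
  simp only [h.P0, Matrix.zero_mulVec, dotProduct_zero, zero_mul, sub_zero] at h4
  linarith

theorem le_P (h : Dat K U A A' lam Lam) (hL : 0 < Lam) (x : κ → ℝ) {t : ℝ} (ht : 0 ≤ t) :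
    (1 - Real.exp (-(2 * Lam) * t)) / (2 * Lam) * (x ⬝ᵥ x) ≤ x ⬝ᵥ (P U A A' t *ᵥ x) := by
  have h1 : ∀ s, HasDerivAt (fun s => x ⬝ᵥ (P U A A' s *ᵥ x) +
      (2 * Lam)⁻¹ * (Real.exp (-(2 * Lam) * s) * (x ⬝ᵥ x)))
      (q U A A' x s - Real.exp (-(2 * Lam) * s) * (x ⬝ᵥ x)) s := by
    intro s
    have h2 : HasDerivAt (fun s => -(2 * Lam) * s) (-(2 * Lam)) s := by
      simpa using (hasDerivAt_id s).const_mul (-(2 * Lam))
    refine ((h.dPq x s).fun_add ((h2.exp.mul_const (x ⬝ᵥ x)).const_mul (2 * Lam)⁻¹)).congr_deriv ?_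
    field_simp
    ring
  have h3 : MonotoneOn (fun s => x ⬝ᵥ (P U A A' s *ᵥ x) +
      (2 * Lam)⁻¹ * (Real.exp (-(2 * Lam) * s) * (x ⬝ᵥ x))) (Ici 0) := by
    refine monotoneOn_of_deriv_nonneg (convex_Ici 0)
      (fun s _ => (h1 s).continuousAt.continuousWithinAt)
      (fun s _ => (h1 s).differentiableAt.differentiableWithinAt) fun s hs => ?_
    rw [interior_Ici] at hs
    rw [(h1 s).deriv]
    have := h.le_q x (le_of_lt hs)
    linarith
  have h4 := h3 (mem_Ici.2 le_rfl) (mem_Ici.2 ht) ht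
  simp only [h.P0, Matrix.zero_mulVec, dotProduct_zero, mul_zero, Real.exp_zero, one_mul,
    zero_add] at h4
  have e : (1 - Real.exp (-(2 * Lam) * t)) / (2 * Lam) * (x ⬝ᵥ x) =
    (2 * Lam)⁻¹ * (x ⬝ᵥ x) - (2 * Lam)⁻¹ * (Real.exp (-(2 * Lam) * t) * (x ⬝ᵥ x)) := by
    field_simp
  linarith

theorem det_A_nonneg (h : Dat K U A A' lam Lam) (hL : 0 < Lam)
    (hc : Continuous fun s => (U s).trace) {t : ℝ} (ht : 0 ≤ t) :
    0 ≤ (A t).det := by
  rw [h.det_A hc]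
  refine mul_nonneg ?_ (Real.exp_pos _).le
  have h1 := pow_le_det (P := P U A A' t) (c := (1 - Real.exp (-(2 * Lam) * t)) / (2 * Lam))
    (h.P_symm t) ?_ (fun x => h.le_P hL x ht)
  · refine le_trans (pow_nonneg ?_ _) h1
    refine div_nonneg (sub_nonneg.2 (Real.exp_le_one_iff.2 ?_)) (by positivity)
    have := mul_nonneg (mul_nonneg zero_le_two hL.le) ht
    linarith
  · refine div_nonneg (sub_nonneg.2 (Real.exp_le_one_iff.2 ?_)) (by positivity)
    have := mul_nonneg (mul_nonneg zero_le_two hL.le) ht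
    linarith

/-- **upper bounds** -/
theorem det_A_le (h : Dat K U A A' lam Lam) (hl : 0 < lam)
    (hc : Continuous fun s => (U s).trace) {t : ℝ} (ht : 0 ≤ t) :
    (A t).det ≤ (2 * lam)⁻¹ ^ Fintype.card κ * Real.exp (∫ s in (0:ℝ)..t, (U s).trace) := by
  rw [h.det_A hc]
  refine mul_le_mul_of_nonneg_right ?_ (Real.exp_pos _).le
  exact det_le_pow (h.P_symm t) (fun x => h.P_nonneg x ht) (fun x => h.P_le hl x ht)

theorem det_A_le' (h : Dat K U A A' lam Lam) (hl : 0 ≤ lam)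
    (hc : Continuous fun s => (U s).trace) {t : ℝ} (ht : 0 ≤ t) :
    (A t).det ≤ t ^ Fintype.card κ * Real.exp (∫ s in (0:ℝ)..t, (U s).trace) := by
  rw [h.det_A hc]
  refine mul_le_mul_of_nonneg_right ?_ (Real.exp_pos _).le
  exact det_le_pow (h.P_symm t) (fun x => h.P_nonneg x ht) (fun x => h.P_le' hl x ht)

/-- **lower bound** -/
theorem le_det_A (h : Dat K U A A' lam Lam) (hL : 0 < Lam)
    (hc : Continuous fun s => (U s).trace) {t : ℝ} (ht : 0 ≤ t) :
    ((1 - Real.exp (-(2 * Lam) * t)) / (2 * Lam)) ^ Fintype.card κ *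
      Real.exp (∫ s in (0:ℝ)..t, (U s).trace) ≤ (A t).det := by
  rw [h.det_A hc]
  refine mul_le_mul_of_nonneg_right ?_ (Real.exp_pos _).le
  refine pow_le_det (h.P_symm t) ?_ (fun x => h.le_P hL x ht)
  refine div_nonneg (sub_nonneg.2 (Real.exp_le_one_iff.2 ?_)) (by positivity)
  have := mul_nonneg (mul_nonneg zero_le_two hL.le) ht
  linarith

end Dat

end Vale.Agent.P207.Q.DetU
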