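import Vale.Agent.P207.Q.H129.Par
import Vale.Agent.P207.H129.JacGram

/-!
# P207, A10: the Jacobian of `exp_m` is the determinant of the Jacobi tensor
-/

open scoped Manifold ContDiff ENNReal Topology
open Bundle MeasureTheory Set Filter

set_option maxSynthPendingDepth 3
set_option linter.unusedSectionVars false

noncomputable section

namespace Vale.Agent.P207.Q

open Vale.Agent.P255
open Vale.Agent.P207.D2 (curvT curvT_apply cov cov_compat jf jf_zero cov_jf_zero curvOp_symm
  curv_pair curv_anti curv_skew')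

variable {n : ℕ} {M : Type} [TopologicalSpace M] [ChartedSpace (EV n) M]
  [IsManifold 𝓘(ℝ, EV n) ∞ M]

section

variable {ι : Type} [Fintype ι] [DecidableEq ι]

/-- the Gram matrix of the differential of the exponential map in a parallel frame -/
theorem gram_frame {g : Metric (EV n) M} {e : M → EV n → M} (he : IsExp g e) {m : M} {v : EV n}
    {F : ι → M → ℝ → EV n}
    (hF : ParFrame g (fun t => e m (t • v)) F) (hcard : Fintype.card ι = n)
    {B B' : ℝ → Matrix ι ι ℝ} (hB0 : B 0 = 0) (hB'0 : B' 0 = 1)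
    (hB : ∀ i j t, HasDerivAt (fun s => B s i j) (B' t i j) t)
    (hB' : ∀ i j t, HasDerivAt (fun s => B' s i j)
      (- ∑ k, KF g (fun t => e m (t • v)) F t i k * B t k j) t) {R : ℝ} (hR : R ≠ 0) (i j : ι) :
    g.coef (e m (R • v)) (chartAt (EV n) (e m (R • v)) (e m (R • v)))
      (fderiv ℝ (fun w => chartAt (EV n) (e m (R • v)) (e m w)) (R • v) (F i m 0))
      (fderiv ℝ (fun w => chartAt (EV n) (e m (R • v)) (e m w)) (R • v) (F j m 0)) =
      (R⁻¹ * R⁻¹) * ((B R).transpose * B R) i j := by
  have hcard' : Fintype.card ι = Module.finrank ℝ (EV n) := by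
    rw [hcard]; simp
  have hsrc : e m (R • v) ∈ (chartAt (EV n) (e m (R • v))).source := mem_chart_source _ _
  have key : ∀ j, fderiv ℝ (fun w => chartAt (EV n) (e m (R • v)) (e m w)) (R • v) (F j m 0) =
      R⁻¹ • ∑ i, B R i j • F i (e m (R • v)) R := by
    intro j
    have h1 := jf_eq_comb he hF hcard' hB0 hB'0 hB hB' j (e m (R • v)) R hsrc
    rw [jf, map_smul] at h1
    rw [← h1, smul_smul, inv_mul_cancel₀ hR, one_smul]
  have on : ∀ i j, g.coef (e m (R • v)) (chartAt (EV n) (e m (R • v)) (e m (R • v)))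
      (F i (e m (R • v)) R) (F j (e m (R • v)) R) = if i = j then 1 else 0 := by
    intro i j
    exact hF.on i j R
  rw [key i, key j]
  simp only [map_smul, map_sum, _root_.smul_apply, _root_.sum_apply, smul_eq_mul, on,
    mul_ite, mul_one, mul_zero, Finset.sum_ite_eq', Finset.mem_univ, if_true,
    Matrix.mul_apply, Matrix.transpose_apply, Finset.mul_sum]
  refine Finset.sum_congr rfl fun k _ => ?_
  ring

variable [CompactSpace M] [T2Space M]

/-- the Jacobian of the exponential map in a parallel frame -/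
theorem jac_frame {g : RMetric (EV n) M} {m : M} {v : EV n} {F : ι → M → ℝ → EV n}
    (hF : ParFrame (mt g) (fun t => expg (mt g) m (t • v)) F) (hcard : Fintype.card ι = n)
    {B B' : ℝ → Matrix ι ι ℝ} (hB0 : B 0 = 0) (hB'0 : B' 0 = 1)
    (hB : ∀ i j t, HasDerivAt (fun s => B s i j) (B' t i j) t)
    (hB' : ∀ i j t, HasDerivAt (fun s => B' s i j)
      (- ∑ k, KF (mt g) (fun t => expg (mt g) m (t • v)) F t i k * B t k j) t)
    {R : ℝ} (hR : 0 < R) :
    jac g m (R • v) = dens0 g m * (|(B R).det| / R ^ n) := by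
  have he := isExp_expg (mt g)
  have hcard' : Fintype.card ι = Module.finrank ℝ (EV n) := by
    rw [hcard]; simp
  set γ : ℝ → M := fun t => expg (mt g) m (t • v) with hγ
  have hγ0 : γ 0 = m := by simp [hγ, he.zero]
  have hm0 : γ 0 ∈ (chartAt (EV n) m).source := by rw [hγ0]; exact mem_chart_source _ m
  have hcc : cc (E := EV n) γ m 0 = chartAt (EV n) m m := by simp only [cc, hγ0]
  have hon0 : ∀ i j, (mt g).ip m (F i m 0) (F j m 0) = if i = j then 1 else 0 := by
    intro i j
    have := hF.on' i j hm0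
    rw [hcc] at this
    exact this
  have hli : LinearIndependent ℝ (fun i => F i m 0) := by
    rw [Fintype.linearIndependent_iff]
    intro c hc j
    have h1 := congrArg (fun y => (mt g).coef m (chartAt (EV n) m m) y (F j m 0)) hc
    have h2 : ∀ i j, (mt g).coef m (chartAt (EV n) m m) (F i m 0) (F j m 0) =
      if i = j then 1 else 0 := hon0
    simp only [map_sum, map_smul, _root_.sum_apply, _root_.smul_apply, smul_eq_mul,
      h2, map_zero, _root_.zero_apply, mul_ite, mul_one, mul_zero,
      Finset.sum_ite_eq', Finset.mem_univ, if_true] at h1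
    exact h1
  let ε : ι ≃ Fin n := Fintype.equivFinOfCardEq hcard
  let b₀ : Module.Basis ι ℝ (EV n) := Module.Basis.mk hli (by
    rw [hli.span_eq_top_of_card_eq_finrank' hcard'])
  let b : Module.Basis (Fin n) ℝ (EV n) := b₀.reindex ε
  have hb : ∀ i, b i = F (ε.symm i) m 0 := by
    intro i
    simp [b, b₀]
  have hb1 : ∀ i j, (mt g).ip m (b i) (b j) = if i = j then 1 else 0 := by
    intro i j
    rw [hb, hb, hon0]
    simp
  rw [jac_eq_sqrt_gram b hb1]
  congr 1
  have hgr : (Matrix.of fun i j : Fin n =>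
      (mt g).coef (expg (mt g) m (R • v)) (chartAt (EV n) (expg (mt g) m (R • v))
        (expg (mt g) m (R • v)))
        (fderiv ℝ (fun w => chartAt (EV n) (expg (mt g) m (R • v)) (expg (mt g) m w)) (R • v) (b i))
        (fderiv ℝ (fun w => chartAt (EV n) (expg (mt g) m (R • v)) (expg (mt g) m w)) (R • v)
          (b j))) =
      (R⁻¹ * R⁻¹) • (((B R).transpose * B R).submatrix ε.symm ε.symm) := by
    ext i j
    rw [Matrix.of_apply, hb, hb, gram_frame he hF hcard hB0 hB'0 hB hB' hR.ne']
    simp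
  rw [hgr, Matrix.det_smul, Matrix.det_submatrix_equiv_self, Matrix.det_mul,
    Matrix.det_transpose, Fintype.card_fin]
  have h3 : (R⁻¹ * R⁻¹) ^ n * ((B R).det * (B R).det) = ((B R).det / R ^ n) ^ 2 := by
    have h4 : R ^ n ≠ 0 := (pow_pos hR n).ne'
    rw [mul_pow, inv_pow, div_pow]
    field_simp
  rw [h3, Real.sqrt_sq_eq_abs, abs_div, abs_of_pos (pow_pos hR n)]

end

section

variable {κ : Type} [Fintype κ] [DecidableEq κ]

/-- the velocity and a parallel orthonormal family orthogonal to it -/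
theorem parFrame_cons {g : Metric (EV n) M} {γ : ℝ → M} (h : IsGeodesic g γ)
    {F : κ → M → ℝ → EV n} (hF : ParFrame g γ F)
    (h1 : ∀ t, prodF g γ (vel γ) (vel γ) t = 1) (h0 : ∀ i t, prodF g γ (F i) (vel γ) t = 0) :
    ParFrame g γ (Sum.elim (fun _ : Unit => vel γ) F) := by
  refine ⟨?_, ?_, ?_, ?_⟩
  · rintro (i | i)
    · exact h.vel_compat
    · exact hF.compat i
  · rintro (i | i) a t ha
    · exact (h.eqn a t (mem_univ _) ha).2.1
    · exact hF.diff i a t ha
  · rintro (i | i) a t ha
    · exact h.covD_vel ha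
    · exact hF.par i a t ha
  · rintro (i | i) (j | j) t
    · simp only [Sum.elim_inl]
      rw [h1]; simp
    · have hm := g.isMetricOn' (γ t)
      have ha := mem_chart_source (EV n) (γ t)
      have := h0 j t
      simp only [Sum.elim_inl, Sum.elim_inr, reduceCtorEq, if_false]
      rw [← this, prodF, prodF, hm.symm _ (cc_mem (γ := γ) ha)]
    · simp only [Sum.elim_inl, Sum.elim_inr, reduceCtorEq, if_false]
      exact h0 i t
    · simp only [Sum.elim_inr, Sum.inr.injEq]
      exact hF.on i j t

theorem KF_vel (g : Metric (EV n) M) (γ : ℝ → M) {ι : Type} (F : ι → M → ℝ → EV n) (i j : ι)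
    (t : ℝ) (hi : F i = vel γ) : KF g γ F t i j = 0 := by
  have hm := g.isMetricOn' (γ t)
  have ha := mem_chart_source (EV n) (γ t)
  have hu := cc_mem (γ := γ) ha
  have h1 := curv_anti hm hu (vel γ (γ t) t) (vel γ (γ t) t) (vel γ (γ t) t)
  have h2 : curv (g.coef (γ t)) (cc γ (γ t) t) (vel γ (γ t) t) (vel γ (γ t) t)
      (vel γ (γ t) t) = 0 := by
    have h3 : (2 : ℝ) • curv (g.coef (γ t)) (cc γ (γ t) t) (vel γ (γ t) t) (vel γ (γ t) t)
      (vel γ (γ t) t) = 0 := by
      rw [two_smul]
      nth_rewrite 1 [h1]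
      exact neg_add_cancel _
    exact (smul_eq_zero.1 h3).resolve_left (by norm_num)
  rw [KF, hi, h2]
  simp

variable [CompactSpace M] [T2Space M]

/-- **A10**: `jac g m (R v) = dens0 g m * |det A(R)| / R^(n-1)` for a unit vector `v`, a parallel
orthonormal frame `F` of the orthogonal complement of the velocity along the geodesic
`exp_m (t v)`, and the solution `A` of `A'' + K A = 0`, `A(0) = 0`, `A'(0) = 1`. -/
theorem jac_eq_det {g : RMetric (EV n) M} {m : M} {v : EV n} {F : κ → M → ℝ → EV n}
    (hF : ParFrame (mt g) (fun t => expg (mt g) m (t • v)) F)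
    (hcard : Fintype.card κ + 1 = n)
    (h1 : ∀ t, prodF (mt g) (fun t => expg (mt g) m (t • v))
      (vel fun t => expg (mt g) m (t • v)) (vel fun t => expg (mt g) m (t • v)) t = 1)
    (h0 : ∀ i t, prodF (mt g) (fun t => expg (mt g) m (t • v)) (F i)
      (vel fun t => expg (mt g) m (t • v)) t = 0)
    {A A' : ℝ → Matrix κ κ ℝ} (hA0 : A 0 = 0) (hA'0 : A' 0 = 1)
    (hA : ∀ i j t, HasDerivAt (fun s => A s i j) (A' t i j) t)
    (hA' : ∀ i j t, HasDerivAt (fun s => A' s i j)
      (- ∑ k, KF (mt g) (fun t => expg (mt g) m (t • v)) F t i k * A t k j) t)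
    {R : ℝ} (hR : 0 < R) :
    jac g m (R • v) = dens0 g m * (|(A R).det| / R ^ (n - 1)) := by
  have he := isExp_expg (mt g)
  set γ : ℝ → M := fun t => expg (mt g) m (t • v) with hγ
  have hgeo : IsGeodesic (mt g) γ := he.geod m v
  have hF' := parFrame_cons hgeo hF h1 h0
  have key := jac_frame (g := g) (m := m) (v := v) (F := Sum.elim (fun _ : Unit => vel γ) F) hF'
    (by rw [Fintype.card_sum, Fintype.card_unit, add_comm, hcard])
    (B := fun t => Matrix.fromBlocks (t • (1 : Matrix Unit Unit ℝ)) 0 0 (A t))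
    (B' := fun t => Matrix.fromBlocks (1 : Matrix Unit Unit ℝ) 0 0 (A' t))
    (by rw [hA0, zero_smul, Matrix.fromBlocks_zero]) (by rw [hA'0, Matrix.fromBlocks_one])
    (by
      rintro (i | i) (j | j) t
      · simpa using hasDerivAt_id' t
      · simpa using hasDerivAt_const t (0 : ℝ)
      · simpa using hasDerivAt_const t (0 : ℝ)
      · simpa using hA i j t)
    (by
      have k0 : ∀ t (j : Unit ⊕ κ) (u : Unit), KF (mt g) (fun t => expg (mt g) m (t • v)) (Sum.elim (fun _ : Unit => vel γ) F) t
          (Sum.inl u) j = 0 := fun t j u => KF_vel (mt g) γ _ _ _ t rfl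
      have k1 : ∀ t (j : Unit ⊕ κ) (u : Unit), KF (mt g) (fun t => expg (mt g) m (t • v)) (Sum.elim (fun _ : Unit => vel γ) F) t
          j (Sum.inl u) = 0 := fun t j u => by rw [KF_symm, k0]
      have k2 : ∀ t (i j : κ), KF (mt g) (fun t => expg (mt g) m (t • v))
          (Sum.elim (fun _ : Unit => vel γ) F) t
          (Sum.inr i) (Sum.inr j) = KF (mt g) (fun t => expg (mt g) m (t • v)) F t i j := fun t i j => rfl
      rintro (i | i) (j | j) t
      · simp only [Fintype.sum_sum_type, k0]
        simpa using hasDerivAt_const t (1 : ℝ)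
      · simp only [Fintype.sum_sum_type, k0]
        simpa using hasDerivAt_const t (0 : ℝ)
      · simp only [Fintype.sum_sum_type, k1]
        simpa using hasDerivAt_const t (0 : ℝ)
      · simp only [Fintype.sum_sum_type, k1, k2]
        simpa using hA' i j t) hR
  rw [key]
  congr 1
  rw [Matrix.det_fromBlocks_zero₂₁]
  simp only [Matrix.det_unique, Matrix.smul_apply, Matrix.one_apply_eq, smul_eq_mul, mul_one]
  rw [abs_mul, abs_of_pos hR]
  obtain ⟨k, rfl⟩ : ∃ k, n = k + 1 := ⟨Fintype.card κ, hcard.symm⟩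
  rw [Nat.add_sub_cancel, pow_succ]
  field_simp

end

end Vale.Agent.P207.Q
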