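import Vale.Agent.P207.BlkD2

/-!
# P207, A10: Jacobi fields in a parallel orthonormal frame
-/

open scoped Manifold ContDiff Topology
open Set Filter

set_option maxSynthPendingDepth 3
set_option linter.unusedSectionVars false

noncomputable section

namespace Vale.Agent.P207.Q

open Vale.Agent.P255
open Vale.Agent.P207.D2 (curvT curvT_apply cov cov_compat jf jf_zero cov_jf_zero curvOp_symm
  curv_pair curv_anti curv_skew')

variable {E : Type} [NormedAddCommGroup E] [NormedSpace ℝ E] [FiniteDimensional ℝ E]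
variable {M : Type} [TopologicalSpace M] [ChartedSpace E M]

/-- a parallel orthonormal family of vector fields along `γ`, in all charts -/
structure ParFrame {ι : Type} [DecidableEq ι] (g : Metric E M) (γ : ℝ → M) (F : ι → M → ℝ → E) :
    Prop where
  compat : ∀ i, Compat γ (F i)
  diff : ∀ i a t, γ t ∈ (chartAt E a).source → DifferentiableAt ℝ (F i a) t
  par : ∀ i a t, γ t ∈ (chartAt E a).source → covD (g.coef a) (cc γ a) (F i a) t = 0
  on : ∀ i j t, prodF g γ (F i) (F j) t = if i = j then 1 else 0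

/-- the matrix `⟨R(F_i, γ')γ', F_j⟩` of the curvature operator in a frame -/
def KF {ι : Type} (g : Metric E M) (γ : ℝ → M) (F : ι → M → ℝ → E) (t : ℝ) (i j : ι) : ℝ :=
  g.coef (γ t) (cc γ (γ t) t) (curv (g.coef (γ t)) (cc γ (γ t) t) (F i (γ t) t)
    (vel γ (γ t) t) (vel γ (γ t) t)) (F j (γ t) t)

theorem curv_eq_curvT₁ {G : E → E →L[ℝ] E →L[ℝ] ℝ} {U : Set E} (h : IsMetricOn G U) {u : E}
    (hu : u ∈ U) (x y z : E) : D1.curvT G u x y z = curv G u x y z := D1.curvT_apply h hu x y z

variable [IsManifold 𝓘(ℝ, E) ∞ M]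

/-- the curvature of compatible fields is compatible -/
theorem compat_curv {g : Metric E M} {γ : ℝ → M} {X Y Z : M → ℝ → E} (hX : Compat γ X)
    (hY : Compat γ Y) (hZ : Compat γ Z) :
    Compat γ (fun a t => curv (g.coef a) (cc γ a t) (X a t) (Y a t) (Z a t)) := by
  intro a b t ha hb
  have hm := g.isMetricOn' a
  have hm' := g.isMetricOn' b
  have hu : cc γ a t ∈ (chartAt E a).target := cc_mem ha
  have hb' : (chartAt E a).symm (cc γ a t) ∈ (chartAt E b).source := by rw [symm_cc ha]; exact hb
  have hev := eventually_trans a b hu hb'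
  have hcc : trans E a b (cc γ a t) = cc γ b t := trans_cc ha
  have h1 : ∀ᶠ x in 𝓝 (cc γ a t), trans E a b x ∈ (chartAt E b).target := by
    filter_upwards [hev] with x hx
    exact (chartAt E b).map_source hx.2
  have h2 : ∀ᶠ x in 𝓝 (cc γ a t), ContDiffAt ℝ ∞ (trans E a b) x := by
    filter_upwards [hev] with x hx
    exact contDiffAt_trans a b hx.1 hx.2
  have h3 : ∀ᶠ x in 𝓝 (cc γ a t), ∀ v w, g.coef b (trans E a b x)
      (fderiv ℝ (trans E a b) x v) (fderiv ℝ (trans E a b) x w) = g.coef a x v w := by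
    filter_upwards [hev] with x hx
    exact g.compat a b x hx.1 hx.2
  have key := D1.curvT_trans hm hm' hu h1 h2 h3 (X a t) (Y a t) (Z a t)
  rw [curv_eq_curvT₁ hm hu, hcc, curv_eq_curvT₁ hm' (cc_mem hb)] at key
  simp only
  rw [key, hX a b t ha hb, hY a b t ha hb, hZ a b t ha hb]

section

variable {ι : Type} [Fintype ι] [DecidableEq ι]
variable {g : Metric E M} {γ : ℝ → M} {F : ι → M → ℝ → E}

omit [Fintype ι] in
theorem ParFrame.on' (hF : ParFrame g γ F) (i j : ι) {a : M} {t : ℝ}
    (ha : γ t ∈ (chartAt E a).source) :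
    g.coef a (cc γ a t) (F i a t) (F j a t) = if i = j then 1 else 0 := by
  rw [← prodF_eq g (hF.compat i) (hF.compat j) ha, hF.on]

omit [Fintype ι] [DecidableEq ι] in
theorem KF_eq (h : IsGeodesic g γ) {F : ι → M → ℝ → E} (hF : ∀ i, Compat γ (F i)) (i j : ι)
    {a : M} {t : ℝ} (ha : γ t ∈ (chartAt E a).source) :
    KF g γ F t i j = g.coef a (cc γ a t) (curv (g.coef a) (cc γ a t) (F i a t)
      (vel γ a t) (vel γ a t)) (F j a t) := by
  have h1 := compat_curv (g := g) (hF i) h.vel_compat h.vel_compat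
  exact prodF_eq g h1 (hF j) ha

omit [Fintype ι] [DecidableEq ι] in
theorem KF_symm (g : Metric E M) (γ : ℝ → M) (F : ι → M → ℝ → E) (i j : ι) (t : ℝ) :
    KF g γ F t i j = KF g γ F t j i := by
  have hm := g.isMetricOn' (γ t)
  have ha := mem_chart_source E (γ t)
  have h1 := curvOp_symm hm (cc_mem (γ := γ) ha) (vel γ (γ t) t) (F i (γ t) t) (F j (γ t) t)
  rw [hm.curvOp_apply (cc_mem (γ := γ) ha), hm.curvOp_apply (cc_mem (γ := γ) ha)] at h1
  unfold KF
  rw [h1, hm.symm _ (cc_mem (γ := γ) ha)]

/-- expansion in a frame -/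
theorem ParFrame.expand (hF : ParFrame g γ F) (hcard : Fintype.card ι = Module.finrank ℝ E)
    {a : M} {t : ℝ} (ha : γ t ∈ (chartAt E a).source) (x : E) :
    x = ∑ i, g.coef a (cc γ a t) x (F i a t) • F i a t := by
  have hm := g.isMetricOn' a
  have hli : LinearIndependent ℝ (fun i => F i a t) := by
    rw [Fintype.linearIndependent_iff]
    intro c hc j
    have h1 := congrArg (fun y => g.coef a (cc γ a t) y (F j a t)) hc
    simp only [map_sum, map_smul, _root_.sum_apply, _root_.smul_apply, smul_eq_mul,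
      hF.on' _ _ ha, map_zero, _root_.zero_apply, mul_ite, mul_one, mul_zero,
      Finset.sum_ite_eq', Finset.mem_univ, if_true] at h1
    exact h1
  have hsp := hli.span_eq_top_of_card_eq_finrank' hcard
  have hx : x ∈ Submodule.span ℝ (Set.range fun i => F i a t) := by rw [hsp]; trivial
  obtain ⟨c, hc⟩ := (Submodule.mem_span_range_iff_exists_fun ℝ).1 hx
  have hcj : ∀ j, g.coef a (cc γ a t) x (F j a t) = c j := by
    intro j
    rw [← hc]
    simp only [map_sum, map_smul, _root_.sum_apply, _root_.smul_apply, smul_eq_mul,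
      hF.on' _ _ ha, mul_ite, mul_one, mul_zero, Finset.sum_ite_eq', Finset.mem_univ, if_true]
  rw [← hc]
  refine Finset.sum_congr rfl fun i _ => ?_
  rw [hc, hcj i]

omit [DecidableEq ι] in
theorem deriv_comb {b b' : ι → ℝ → ℝ} {X : ι → ℝ → E} {t : ℝ}
    (hb : ∀ i, HasDerivAt (b i) (b' i t) t) (hX : ∀ i, DifferentiableAt ℝ (X i) t) :
    HasDerivAt (fun s => ∑ i, b i s • X i s) (∑ i, (b i t • deriv (X i) t + b' i t • X i t)) t := by
  have h := HasDerivAt.fun_sum (u := Finset.univ) (A := fun i s => b i s • X i s)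
    (A' := fun i => b i t • deriv (X i) t + b' i t • X i t) (x := t)
    (fun i _ => (hb i).smul (hX i).hasDerivAt)
  exact h

/-- the covariant derivative of a combination of parallel fields -/
theorem covD_comb (hF : ParFrame g γ F) {b b' : ι → ℝ → ℝ} {a : M} {t : ℝ}
    (ha : γ t ∈ (chartAt E a).source) (hb : ∀ i, HasDerivAt (b i) (b' i t) t) :
    covD (g.coef a) (cc γ a) (fun s => ∑ i, b i s • F i a s) t = ∑ i, b' i t • F i a t := by
  have hd := (deriv_comb hb fun i => hF.diff i a t ha).deriv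
  rw [covD, hd, ← chrisB_apply, map_sum, ← Finset.sum_add_distrib]
  refine Finset.sum_congr rfl fun i _ => ?_
  have h1 := hF.par i a t ha
  rw [covD, ← chrisB_apply] at h1
  have h2 : deriv (F i a) t = - chrisB (g.coef a) (cc γ a t) (deriv (cc γ a) t) (F i a t) :=
    eq_neg_of_add_eq_zero_left h1
  rw [map_smul, h2, smul_neg]
  abel

/-- a combination of the frame is a Jacobi field if the coefficients solve the Jacobi equation -/
theorem isJacobi_comb (h : IsGeodesic g γ) (hF : ParFrame g γ F)
    (hcard : Fintype.card ι = Module.finrank ℝ E) {b b' : ι → ℝ → ℝ}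
    (hb : ∀ i t, HasDerivAt (b i) (b' i t) t)
    (hb' : ∀ i t, HasDerivAt (b' i) (- ∑ k, KF g γ F t i k * b k t) t) :
    IsJacobi g γ (fun a t => ∑ i, b i t • F i a t) := by
  refine ⟨?_, ?_⟩
  · intro a c t ha hc
    simp only [map_sum, map_smul]
    refine Finset.sum_congr rfl fun i _ => ?_
    rw [hF.compat i a c t ha hc]
  · intro a t ha
    have hm := g.isMetricOn' a
    have hu : cc γ a t ∈ (chartAt E a).target := cc_mem ha
    have hsrc := eventually_mem_source h.continuous.continuousAt ha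
    have e1 : covD (g.coef a) (cc γ a) (fun s => ∑ i, b i s • F i a s) =ᶠ[𝓝 t]
        fun s => ∑ i, b' i s • F i a s := by
      filter_upwards [hsrc] with s hs
      exact covD_comb hF hs fun i => hb i s
    have e2 : HasDerivAt (fun s => ∑ i, b' i s • F i a s) _ t :=
      deriv_comb (b' := fun i t => - ∑ k, KF g γ F t i k * b k t) (fun i => hb' i t)
        fun i => hF.diff i a t ha
    refine ⟨(deriv_comb (fun i => hb i t) fun i => hF.diff i a t ha).differentiableAt,
      e2.differentiableAt.congr_of_eventuallyEq e1, ?_⟩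
    rw [covD_congr e1, covD_comb (b' := fun i t => - ∑ k, KF g γ F t i k * b k t) hF ha
      fun i => hb' i t]
    have e3 : ∀ k, curv (g.coef a) (cc γ a t) (F k a t) (deriv (cc γ a) t) (deriv (cc γ a) t) =
        ∑ i, KF g γ F t k i • F i a t := by
      intro k
      rw [hF.expand hcard ha (curv (g.coef a) (cc γ a t) (F k a t) (deriv (cc γ a) t)
        (deriv (cc γ a) t))]
      refine Finset.sum_congr rfl fun i _ => ?_
      rw [KF_eq h hF.compat k i ha]
      rfl
    have e4 : curv (g.coef a) (cc γ a t) (∑ i, b i t • F i a t) (deriv (cc γ a) t)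
        (deriv (cc γ a) t) = ∑ k, b k t • ∑ i, KF g γ F t k i • F i a t := by
      rw [← curvT_apply hm hu]
      simp only [map_sum, map_smul, _root_.sum_apply, _root_.smul_apply]
      refine Finset.sum_congr rfl fun k _ => ?_
      rw [curvT_apply hm hu, e3]
    rw [e4]
    simp only [Finset.smul_sum, smul_smul, neg_smul, Finset.sum_neg_distrib]
    rw [Finset.sum_comm, neg_add_eq_zero]
    refine Finset.sum_congr rfl fun i _ => ?_
    rw [Finset.sum_smul]
    refine Finset.sum_congr rfl fun k _ => ?_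
    rw [KF_symm g γ F i k, mul_comm]

omit [Fintype ι] [DecidableEq ι] in
theorem isJacobi_sub (h : IsGeodesic g γ) {J₁ J₂ : M → ℝ → E} (h₁ : IsJacobi g γ J₁)
    (h₂ : IsJacobi g γ J₂) : IsJacobi g γ (fun a t => J₁ a t - J₂ a t) := by
  refine ⟨?_, ?_⟩
  · intro a b t ha hb
    rw [h₁.compat a b t ha hb, h₂.compat a b t ha hb, map_sub]
  · intro a t ha
    have hm := g.isMetricOn' a
    have hu : cc γ a t ∈ (chartAt E a).target := cc_mem ha
    have hsrc := eventually_mem_source h.continuous.continuousAt ha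
    have key : ∀ (X Y : ℝ → E) (s : ℝ), DifferentiableAt ℝ X s → DifferentiableAt ℝ Y s →
        covD (g.coef a) (cc γ a) (fun s => X s - Y s) s =
          covD (g.coef a) (cc γ a) X s - covD (g.coef a) (cc γ a) Y s := by
      intro X Y s hX hY
      simp only [covD, ← chrisB_apply]
      rw [deriv_fun_sub hX hY, map_sub]
      abel
    obtain ⟨a1, a2, a3⟩ := h₁.eqn a t ha
    obtain ⟨b1, b2, b3⟩ := h₂.eqn a t ha
    have e1 : covD (g.coef a) (cc γ a) (fun s => J₁ a s - J₂ a s) =ᶠ[𝓝 t]
        fun s => covD (g.coef a) (cc γ a) (J₁ a) s - covD (g.coef a) (cc γ a) (J₂ a) s := by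
      filter_upwards [hsrc] with s hs
      exact key _ _ s (h₁.eqn a s hs).1 (h₂.eqn a s hs).1
    refine ⟨a1.fun_sub b1, (a2.fun_sub b2).congr_of_eventuallyEq e1, ?_⟩
    rw [covD_congr e1, key _ _ t a2 b2]
    have a4 := eq_neg_of_add_eq_zero_left a3
    have b4 := eq_neg_of_add_eq_zero_left b3
    rw [a4, b4, ← curvT_apply hm hu, ← curvT_apply hm hu, ← curvT_apply hm hu]
    simp only [map_sub, _root_.sub_apply]
    abel

/-- the variation field of the exponential map in a parallel frame -/
theorem jf_eq_comb {e : M → E → M} (he : IsExp g e) {m : M} {v : E}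
    (hF : ParFrame g (fun t => e m (t • v)) F) (hcard : Fintype.card ι = Module.finrank ℝ E)
    {B B' : ℝ → Matrix ι ι ℝ} (hB0 : B 0 = 0) (hB'0 : B' 0 = 1)
    (hB : ∀ i j t, HasDerivAt (fun s => B s i j) (B' t i j) t)
    (hB' : ∀ i j t, HasDerivAt (fun s => B' s i j)
      (- ∑ k, KF g (fun t => e m (t • v)) F t i k * B t k j) t) (j : ι) (a : M) (t : ℝ)
    (ha : e m (t • v) ∈ (chartAt E a).source) :
    jf e m v (F j m 0) a t = ∑ i, B t i j • F i a t := by
  set γ : ℝ → M := fun t => e m (t • v) with hγ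
  have hgeo : IsGeodesic g γ := he.geod m v
  have hγ0 : γ 0 = m := by simp [hγ, he.zero]
  have hm0 : γ 0 ∈ (chartAt E m).source := by rw [hγ0]; exact mem_chart_source E m
  have hJ₁ : IsJacobi g γ (jf e m v (F j m 0)) := he.jac m v (F j m 0)
  have hJ₂ : IsJacobi g γ (fun a t => ∑ i, B t i j • F i a t) :=
    isJacobi_comb hgeo hF hcard (b := fun i t => B t i j) (b' := fun i t => B' t i j)
      (fun i t => hB i j t) (fun i t => hB' i j t)
  have hJ := isJacobi_sub hgeo hJ₁ hJ₂
  have hz := hJ.zero_of_initial hgeo (a := m) (t₀ := 0) hm0 (by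
      simp only [jf_zero, hB0]
      simp) (by
      have k1 : DifferentiableAt ℝ (jf e m v (F j m 0) m) 0 := (hJ₁.eqn m 0 hm0).1
      have k2 : DifferentiableAt ℝ (fun s => ∑ i, B s i j • F i m s) 0 := (hJ₂.eqn m 0 hm0).1
      have k3 := cov_jf_zero he m v (F j m 0)
      have k4 := covD_comb (b := fun i t => B t i j) (b' := fun i t => B' t i j) hF hm0
        (fun i => hB i j 0)
      have k5 : covD (g.coef m) (cc γ m) (fun s => jf e m v (F j m 0) m s
          - ∑ i, B s i j • F i m s) 0 = covD (g.coef m) (cc γ m) (jf e m v (F j m 0) m) 0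
          - covD (g.coef m) (cc γ m) (fun s => ∑ i, B s i j • F i m s) 0 := by
        simp only [covD, ← chrisB_apply]
        rw [deriv_fun_sub k1 k2, map_sub]
        abel
      rw [k5, k3, k4, hB'0]
      simp [Matrix.one_apply])
  have := hz a t ha
  exact sub_eq_zero.1 this

end

end Vale.Agent.P207.Q
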