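import Vale.Agent.P207.Q.H129.JacU
import Vale.Agent.P207.Q.H916.Fr4
import Vale.Agent.P207.Q.H545.Step5
import Vale.Agent.P207.C1.Psi

/-!
# P207, block JacFr: the Jacobian of `exp` and the Riccati solution on the frame bundle
-/

open scoped Manifold ContDiff ENNReal Topology Matrix
open Bundle MeasureTheory Set Filter

set_option maxSynthPendingDepth 3
set_option linter.unusedSectionVars false

noncomputable section

namespace Vale.Agent.P207.Q.H129

open Vale.Agent.P255 (RMetric Metric geo expg expg_smul expg_smul_fun cc vel prodF IsGeodesic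
  isExp_expg curv IsExp)
open Vale.Agent.P207.Q
open Vale.Agent.P207.Q.H545 (Rf Rf_eq)
open Vale.Agent.P207.Q.H892 (exists_frame_ut)

variable {k : ℕ} {M : Type} [TopologicalSpace M] [ChartedSpace (EV (k + 1)) M]
  [IsManifold 𝓘(ℝ, EV (k + 1)) ∞ M] [CompactSpace M] [T2Space M] {g : RMetric (EV (k + 1)) M}
  {Φ : ℝ → Fr g → Fr g} {φ : ℝ → UT g → UT g}

/-- the orbit of the frame flow covers the geodesic `exp_x (t v)` -/
theorem pt_eq_expg (hΦ : IsHorFlow g (Pi.single 0 1) Φ) (f : Fr g) :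
    (fun t => (Φ t f).pt) = fun t => expg (mt g) f.pt (t • f.e 0) := by
  funext t
  rw [hΦ.pt_eq, expg_smul]

/-- the velocity of the orbit is the first vector of the frame -/
theorem vel_eq (hΦ : IsHorFlow g (Pi.single 0 1) Φ) (f : Fr g) {a : M} {t : ℝ}
    (ha : (Φ t f).pt ∈ (chartAt (EV (k + 1)) a).source) :
    vel (fun t => (Φ t f).pt) a t = (chF a (Φ t f).1).2 0 :=
  ((hΦ f).2.deriv_cc ha).deriv

/-- the curvature matrix of the frame along the orbit -/
theorem KF_eq_Rf (hΦ : IsHorFlow g (Pi.single 0 1) Φ) (f : Fr g) (t : ℝ) (i j : Fin k) :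
    KF (mt g) (fun t => (Φ t f).pt) (fun (i : Fin k) a t => (chF a (Φ t f).1).2 i.succ) t i j =
      Rf g (Φ t f) i.succ 0 0 j.succ := by
  have ha : (Φ t f).pt ∈ (chartAt (EV (k + 1)) (Φ t f).pt).source := mem_chart_source _ _
  have hm := (mt g).isMetricOn' (Φ t f).pt
  have hu : (chF (Φ t f).pt (Φ t f).1).1 ∈ (chartAt (EV (k + 1)) (Φ t f).pt).target :=
    (chartAt (EV (k + 1)) (Φ t f).pt).map_source ha
  rw [Rf_eq (Φ t f) i.succ 0 0 j.succ ha, D1.curvT_apply hm hu, KF]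
  rw [vel_eq hΦ f ha]
  rfl

theorem jac_zero (g : RMetric (EV (k + 1)) M) (m : M) : jac g m 0 = dens0 g m := by
  have he := isExp_expg (mt g)
  have h0 : expg (mt g) m 0 = m := he.zero m
  rw [jac, h0]
  have h1 := (G2.hasFDerivAt_exp he m).fderiv
  rw [h1]
  have h2 : (ContinuousLinearMap.id ℝ (EV (k + 1))).det = 1 := LinearMap.det_id
  rw [h2, abs_one, one_mul]

variable {U : Fr g → Matrix (Fin k) (Fin k) ℝ} {t : UT g → ℝ} {lam Lam : ℝ}

/-- the two-sided estimate on the orbit of a frame -/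
theorem jac_bounds_fr (hΦ : IsHorFlow g (Pi.single 0 1) Φ) (hl : 0 < lam) (hL : 0 < Lam)
    (hU : ∀ f i j r, HasDerivAt (fun s => U (Φ s f) i j)
      (- Rf g (Φ r f) i.succ 0 0 j.succ - (U (Φ r f) * U (Φ r f)) i j) r)
    (hsym : ∀ f, (U f)ᵀ = U f)
    (hlo : ∀ f x, lam * (x ⬝ᵥ x) ≤ x ⬝ᵥ (U f *ᵥ x))
    (hhi : ∀ f x, x ⬝ᵥ (U f *ᵥ x) ≤ Lam * (x ⬝ᵥ x)) (f : Fr g) {R : ℝ} (hR : 0 < R) :
    jac g f.pt (R • f.e 0) ≤ dens0 g f.pt * Real.exp (∫ s in (0:ℝ)..R, (U (Φ s f)).trace) ∧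
    R ^ k * jac g f.pt (R • f.e 0) ≤
      (2 * lam)⁻¹ ^ k * (dens0 g f.pt * Real.exp (∫ s in (0:ℝ)..R, (U (Φ s f)).trace)) ∧
    ((1 - Real.exp (-(2 * Lam) * R)) / (2 * Lam)) ^ k *
      (dens0 g f.pt * Real.exp (∫ s in (0:ℝ)..R, (U (Φ s f)).trace)) ≤
        R ^ k * jac g f.pt (R • f.e 0) := by
  have hγ := pt_eq_expg hΦ f
  have hF := hΦ.parFrame f (μ := Fin k) Fin.succ (Fin.succ_injective k)
  have hsrc : ∀ t, (Φ t f).pt ∈ (chartAt (EV (k + 1)) (Φ t f).pt).source :=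
    fun t => mem_chart_source _ _
  have hip : ∀ t (i j : Fin (k + 1)), (mt g).coef (Φ t f).pt (chF (Φ t f).pt (Φ t f).1).1
      ((chF (Φ t f).pt (Φ t f).1).2 i) ((chF (Φ t f).pt (Φ t f).1).2 j) =
      if i = j then 1 else 0 := by
    intro t i j
    exact (inner_chF g (Φ t f).pt (f := (Φ t f).1) (hsrc t) i j).trans ((Φ t f).2 i j)
  have h1 : ∀ t, prodF (mt g) (fun t => (Φ t f).pt) (vel fun t => (Φ t f).pt)
      (vel fun t => (Φ t f).pt) t = 1 := by
    intro t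
    rw [prodF, vel_eq hΦ f (hsrc t)]
    exact (hip t 0 0).trans (if_pos rfl)
  have h0 : ∀ (i : Fin k) t, prodF (mt g) (fun t => (Φ t f).pt)
      (fun a t => (chF a (Φ t f).1).2 i.succ) (vel fun t => (Φ t f).pt) t = 0 := by
    intro i t
    rw [prodF, vel_eq hΦ f (hsrc t)]
    exact (hip t i.succ 0).trans (if_neg (Fin.succ_ne_zero i))
  have hU' : ∀ i j t, HasDerivAt (fun s => U (Φ s f) i j)
      (- KF (mt g) (fun t => (Φ t f).pt) (fun (i : Fin k) a t => (chF a (Φ t f).1).2 i.succ) t i j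
        - (U (Φ t f) * U (Φ t f)) i j) t := by
    intro i j t
    rw [KF_eq_Rf hΦ]
    exact hU f i j t
  rw [hγ] at hF h1 h0 hU'
  exact jac_bounds (g := g) (m := f.pt) (v := f.e 0) hF (by simp) h1 h0
    (U := fun s => U (Φ s f)) hl hL hU' (fun t => hsym _) (fun t => hlo _) (fun t => hhi _) hR

/-- **JacUpper** (hj of Ruelle's inequality) and **JacLower** (hj of the area growth) for the
trace `t` of the Riccati solution `U` -/
theorem jac_upper_lower (hΦ : IsHorFlow g (Pi.single 0 1) Φ) (hφ : IsGeoFlow g φ)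
    (hl : 0 < lam) (hL : 0 < Lam)
    (hU : ∀ f i j r, HasDerivAt (fun s => U (Φ s f) i j)
      (- Rf g (Φ r f) i.succ 0 0 j.succ - (U (Φ r f) * U (Φ r f)) i j) r)
    (hsym : ∀ f, (U f)ᵀ = U f)
    (hlo : ∀ f x, lam * (x ⬝ᵥ x) ≤ x ⬝ᵥ (U f *ᵥ x))
    (hhi : ∀ f x, x ⬝ᵥ (U f *ᵥ x) ≤ Lam * (x ⬝ᵥ x))
    (ht : ∀ f, t (f.ut 0) = (U f).trace) : JacUpper φ t ∧ JacLower φ t := by
  have hint : ∀ (f : Fr g) (r : ℝ), (∫ s in (0:ℝ)..r, t (φ s (f.ut 0))) =
      ∫ s in (0:ℝ)..r, (U (Φ s f)).trace := by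
    intro f r
    refine intervalIntegral.integral_congr fun s _ => ?_
    change t (φ s (f.ut 0)) = (U (Φ s f)).trace
    rw [← hΦ.ut_eq hφ, ht]
  constructor
  · intro e he
    refine ⟨1, fun p r hr => ?_⟩
    obtain ⟨f, rfl⟩ := exists_frame_ut p
    have hd : 0 ≤ dens0 g f.pt := Real.sqrt_nonneg _
    have hexp : Real.exp (∫ s in (0:ℝ)..r, t (φ s (f.ut 0))) ≤
        Real.exp ((∫ s in (0:ℝ)..r, t (φ s (f.ut 0))) + e * r) :=
      Real.exp_le_exp.2 (le_add_of_nonneg_right (mul_nonneg he.le hr))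
    have key : jac g f.pt (r • f.e 0) ≤
        dens0 g f.pt * Real.exp (∫ s in (0:ℝ)..r, t (φ s (f.ut 0))) := by
      rcases hr.eq_or_lt with h0 | h0
      · subst h0
        rw [zero_smul, jac_zero]
        simp
      · rw [hint]
        exact (jac_bounds_fr hΦ hl hL hU hsym hlo hhi f h0).1
    rw [one_mul]
    exact key.trans (mul_le_mul_of_nonneg_left hexp hd)
  · refine ⟨((1 - Real.exp (-(2 * Lam))) / (2 * Lam)) ^ k, ?_, fun p r hr => ?_⟩
    · refine pow_pos (div_pos (sub_pos.2 ?_) (by positivity)) k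
      have h1 : Real.exp (-(2 * Lam)) < Real.exp 0 := Real.exp_lt_exp.2 (by linarith)
      rwa [Real.exp_zero] at h1
    · obtain ⟨f, rfl⟩ := exists_frame_ut p
      have hd : 0 ≤ dens0 g f.pt := Real.sqrt_nonneg _
      have hr0 : 0 < r := lt_of_lt_of_le one_pos hr
      have h1 := (jac_bounds_fr hΦ hl hL hU hsym hlo hhi f hr0).2.2
      rw [← hint] at h1
      refine le_trans ?_ h1
      rw [mul_assoc]
      refine mul_le_mul_of_nonneg_right ?_ (mul_nonneg hd (Real.exp_pos _).le)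
      refine pow_le_pow_left₀ ?_ ?_ k
      · refine div_nonneg (sub_nonneg.2 (Real.exp_le_one_iff.2 ?_)) (by positivity)
        linarith
      · refine div_le_div_of_nonneg_right ?_ (by positivity)
        refine sub_le_sub_left (Real.exp_le_exp.2 ?_) 1
        have := mul_le_mul_of_nonneg_left hr (mul_pos two_pos hL).le
        linarith

end Vale.Agent.P207.Q.H129
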