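import Vale.Agent.P207.Q.H129.JacA
import Vale.Agent.P207.Q.H129.DetU

/-!
# P207, block JT: the Jacobian of `exp_m` is comparable to `exp (∫ tr U)`
-/

open scoped Manifold ContDiff ENNReal Topology Matrix
open Bundle MeasureTheory Set Filter

set_option maxSynthPendingDepth 3
set_option linter.unusedSectionVars false

noncomputable section

namespace Vale.Agent.P207.Q

open Vale.Agent.P255
open Vale.Agent.P207.D2 (curvT curvT_apply cov cov_compat jf jf_zero cov_jf_zero curvOp_symm
  curv_pair curv_anti curv_skew')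

variable {n : ℕ} {M : Type} [TopologicalSpace M] [ChartedSpace (EV n) M]
  [IsManifold 𝓘(ℝ, EV n) ∞ M]

section

variable {ι : Type} [Fintype ι] [DecidableEq ι]

/-- the Jacobi tensor in a full parallel frame exists -/
theorem exists_jacobi_matrix {g : Metric (EV n) M} {e : M → EV n → M} (he : IsExp g e) {m : M}
    {v : EV n} {F : ι → M → ℝ → EV n} (hF : ParFrame g (fun t => e m (t • v)) F)
    (hcard : Fintype.card ι = n) :
    ∃ B B' : ℝ → Matrix ι ι ℝ, B 0 = 0 ∧ B' 0 = 1 ∧
      (∀ i j t, HasDerivAt (fun s => B s i j) (B' t i j) t) ∧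
      (∀ i j t, HasDerivAt (fun s => B' s i j)
        (- ∑ k, KF g (fun t => e m (t • v)) F t i k * B t k j) t) := by
  have hcard' : Fintype.card ι = Module.finrank ℝ (EV n) := by
    rw [hcard]; simp
  set γ : ℝ → M := fun t => e m (t • v) with hγ
  have hgeo : IsGeodesic g γ := he.geod m v
  have hγ0 : γ 0 = m := by simp [hγ, he.zero]
  have hm0 : γ 0 ∈ (chartAt (EV n) m).source := by rw [hγ0]; exact mem_chart_source _ m
  have hJ : ∀ w, IsJacobi g γ (jf e m v w) := fun w => he.jac m v w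
  have hdc : ∀ a t, γ t ∈ (chartAt (EV n) a).source → DifferentiableAt ℝ (cc (E := EV n) γ a) t :=
    fun a t ha => (hgeo.eqn a t (mem_univ _) ha).1
  have hc : ∀ w, Compat γ (cov g γ (jf e m v w)) := fun w =>
    cov_compat (g := g) hgeo.continuous hdc (hJ w).compat' fun a t ha => ((hJ w).eqn a t ha).1
  have hsrc : ∀ t, γ t ∈ (chartAt (EV n) (γ t)).source := fun t => mem_chart_source _ (γ t)
  refine ⟨fun t => Matrix.of fun i j => prodF g γ (jf e m v (F j m 0)) (F i) t,
    fun t => Matrix.of fun i j => prodF g γ (cov g γ (jf e m v (F j m 0))) (F i) t, ?_, ?_, ?_, ?_⟩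
  · ext i j
    change prodF g γ (jf e m v (F j m 0)) (F i) 0 = 0
    rw [prodF_eq g (hJ _).compat' (hF.compat i) hm0, jf_zero]
    simp
  · ext i j
    have k1 : cov g γ (jf e m v (F j m 0)) m 0 = F j m 0 := cov_jf_zero he m v _
    change prodF g γ (cov g γ (jf e m v (F j m 0))) (F i) 0 = (1 : Matrix ι ι ℝ) i j
    rw [prodF_eq g (hc _) (hF.compat i) hm0, k1, hF.on' _ _ hm0,
      Matrix.one_apply]
    simp only [eq_comm]
  · intro i j t
    have h1 := hasDerivAt_prodF g hgeo.continuous (hJ (F j m 0)).compat' (hF.compat i) (hsrc t)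
      (hdc _ t (hsrc t)) ((hJ (F j m 0)).eqn _ t (hsrc t)).1 (hF.diff i _ t (hsrc t))
    rw [hF.par i _ t (hsrc t), map_zero, add_zero] at h1
    exact h1
  · intro i j t
    have h1 := hasDerivAt_prodF g hgeo.continuous (hc (F j m 0)) (hF.compat i) (hsrc t)
      (hdc _ t (hsrc t)) ((hJ (F j m 0)).eqn _ t (hsrc t)).2.1 (hF.diff i _ t (hsrc t))
    rw [hF.par i _ t (hsrc t), map_zero, add_zero] at h1
    refine h1.congr_deriv ?_
    have hm := g.isMetricOn' (γ t)
    have hu : cc γ (γ t) t ∈ (chartAt (EV n) (γ t)).target := cc_mem (hsrc t)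
    have h2 := eq_neg_of_add_eq_zero_left ((hJ (F j m 0)).eqn _ t (hsrc t)).2.2
    have h3 : covD (g.coef (γ t)) (cc γ (γ t)) (cov g γ (jf e m v (F j m 0)) (γ t)) t =
      - curv (g.coef (γ t)) (cc γ (γ t) t) (jf e m v (F j m 0) (γ t) t) (vel γ (γ t) t)
          (vel γ (γ t) t) := h2
    rw [h3, map_neg, _root_.neg_apply]
    congr 1
    have h4 := hF.expand hcard' (hsrc t) (jf e m v (F j m 0) (γ t) t)
    rw [← curvT_apply hm hu]
    nth_rewrite 1 [h4]
    simp only [map_sum, map_smul, _root_.sum_apply, _root_.smul_apply, smul_eq_mul]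
    refine Finset.sum_congr rfl fun k _ => ?_
    rw [curvT_apply hm hu, KF_symm g γ F i k, mul_comm]
    rfl

end

section

variable {κ : Type} [Fintype κ] [DecidableEq κ]

/-- the Jacobi tensor in a parallel frame of the orthogonal complement exists -/
theorem exists_jacobi_matrix' {g : Metric (EV n) M} {e : M → EV n → M} (he : IsExp g e) {m : M}
    {v : EV n} {F : κ → M → ℝ → EV n} (hF : ParFrame g (fun t => e m (t • v)) F)
    (hcard : Fintype.card κ + 1 = n)
    (h1 : ∀ t, prodF g (fun t => e m (t • v))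
      (vel fun t => e m (t • v)) (vel fun t => e m (t • v)) t = 1)
    (h0 : ∀ i t, prodF g (fun t => e m (t • v)) (F i)
      (vel fun t => e m (t • v)) t = 0) :
    ∃ A A' : ℝ → Matrix κ κ ℝ, A 0 = 0 ∧ A' 0 = 1 ∧
      (∀ i j t, HasDerivAt (fun s => A s i j) (A' t i j) t) ∧
      (∀ i j t, HasDerivAt (fun s => A' s i j)
        (- ∑ k, KF g (fun t => e m (t • v)) F t i k * A t k j) t) := by
  have hgeo : IsGeodesic g (fun t => e m (t • v)) := he.geod m v
  have hF' := parFrame_cons hgeo hF h1 h0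
  obtain ⟨B, B', hB0, hB'0, hB, hB'⟩ := exists_jacobi_matrix he hF'
    (by rw [Fintype.card_sum, Fintype.card_unit, add_comm, hcard])
  refine ⟨fun t => Matrix.of fun i j => B t (Sum.inr i) (Sum.inr j),
    fun t => Matrix.of fun i j => B' t (Sum.inr i) (Sum.inr j), ?_, ?_, fun i j t => ?_,
    fun i j t => ?_⟩
  · ext i j; simp [hB0]
  · ext i j; simp [hB'0, Matrix.one_apply]
  · exact hB _ _ t
  · have h2 := hB' (Sum.inr i) (Sum.inr j) t
    refine h2.congr_deriv ?_
    have k1 : ∀ (j : κ) (u : Unit), KF g (fun t => e m (t • v))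
        (Sum.elim (fun _ : Unit => vel fun t => e m (t • v)) F) t
        (Sum.inr j) (Sum.inl u) = 0 := fun j u => by
      rw [KF_symm]; exact KF_vel g _ _ _ _ t rfl
    simp only [Fintype.sum_sum_type, k1, zero_mul, Finset.sum_const_zero, zero_add]
    rfl

variable [CompactSpace M] [T2Space M]

/-- **block JT**: for a symmetric solution `U` of the Riccati equation `U' = -R - U²` along the
geodesic, with `lam ≤ U ≤ Lam`, the Jacobian of `exp_m` is comparable to `exp (∫ tr U)` -/
theorem jac_bounds {g : RMetric (EV n) M} {m : M} {v : EV n} {F : κ → M → ℝ → EV n}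
    (hF : ParFrame (mt g) (fun t => expg (mt g) m (t • v)) F)
    (hcard : Fintype.card κ + 1 = n)
    (h1 : ∀ t, prodF (mt g) (fun t => expg (mt g) m (t • v))
      (vel fun t => expg (mt g) m (t • v)) (vel fun t => expg (mt g) m (t • v)) t = 1)
    (h0 : ∀ i t, prodF (mt g) (fun t => expg (mt g) m (t • v)) (F i)
      (vel fun t => expg (mt g) m (t • v)) t = 0)
    {U : ℝ → Matrix κ κ ℝ} {lam Lam : ℝ} (hl : 0 < lam) (hL : 0 < Lam)
    (hU : ∀ i j t, HasDerivAt (fun s => U s i j)
      (- KF (mt g) (fun t => expg (mt g) m (t • v)) F t i j - (U t * U t) i j) t)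
    (hsym : ∀ t, (U t)ᵀ = U t)
    (hlo : ∀ t x, lam * (x ⬝ᵥ x) ≤ x ⬝ᵥ (U t *ᵥ x))
    (hhi : ∀ t x, x ⬝ᵥ (U t *ᵥ x) ≤ Lam * (x ⬝ᵥ x)) {R : ℝ} (hR : 0 < R) :
    jac g m (R • v) ≤ dens0 g m * Real.exp (∫ s in (0:ℝ)..R, (U s).trace) ∧
    R ^ (n - 1) * jac g m (R • v) ≤
      (2 * lam)⁻¹ ^ (n - 1) * (dens0 g m * Real.exp (∫ s in (0:ℝ)..R, (U s).trace)) ∧
    ((1 - Real.exp (-(2 * Lam) * R)) / (2 * Lam)) ^ (n - 1) *
      (dens0 g m * Real.exp (∫ s in (0:ℝ)..R, (U s).trace)) ≤ R ^ (n - 1) * jac g m (R • v) := by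
  obtain ⟨A, A', hA0, hA'0, hA, hA'⟩ := exists_jacobi_matrix' (isExp_expg (mt g)) hF hcard h1 h0
  have hD : DetU.Dat (fun t => Matrix.of fun i j =>
      - KF (mt g) (fun t => expg (mt g) m (t • v)) F t i j) U A A' lam Lam := by
    refine ⟨fun t i j => ?_, hsym, hlo, hhi, hA0, hA'0, fun t i j => hA i j t, fun t i j => ?_⟩
    · exact hU i j t
    · refine (hA' i j t).congr_deriv ?_
      rw [Matrix.mul_apply, ← Finset.sum_neg_distrib]
      refine Finset.sum_congr rfl fun k _ => ?_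
      rw [Matrix.of_apply, neg_mul]
  have hc : Continuous fun s => (U s).trace := by
    refine continuous_iff_continuousAt.2 fun t => ?_
    have := HasDerivAt.fun_sum (u := Finset.univ) (A := fun i s => U s i i)
      (A' := fun i => _) (x := t) (fun i _ => hU i i t)
    exact this.continuousAt
  have hd0 : 0 ≤ dens0 g m := Real.sqrt_nonneg _
  have hk : Fintype.card κ = n - 1 := by omega
  have key := jac_eq_det hF hcard h1 h0 hA0 hA'0 hA hA' hR
  have hAn := hD.det_A_nonneg hL hc hR.le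
  rw [abs_of_nonneg hAn] at key
  have e1 := hD.det_A_le' hl.le hc hR.le
  have e2 := hD.det_A_le hl hc hR.le
  have e3 := hD.le_det_A hL hc hR.le
  rw [hk] at e1 e2 e3
  have hRn : (0 : ℝ) < R ^ (n - 1) := pow_pos hR _
  have key' : R ^ (n - 1) * jac g m (R • v) = dens0 g m * (A R).det := by
    rw [key]; field_simp
  refine ⟨?_, ?_, ?_⟩
  · rw [key]
    refine mul_le_mul_of_nonneg_left ?_ hd0
    rw [div_le_iff₀ hRn, mul_comm]
    exact e1
  · rw [key']
    calc _ ≤ dens0 g m * ((2 * lam)⁻¹ ^ (n - 1) * Real.exp (∫ s in (0:ℝ)..R, (U s).trace)) :=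
          mul_le_mul_of_nonneg_left e2 hd0
      _ = _ := by ring
  · rw [key']
    calc _ = dens0 g m * (((1 - Real.exp (-(2 * Lam) * R)) / (2 * Lam)) ^ (n - 1) *
            Real.exp (∫ s in (0:ℝ)..R, (U s).trace)) := by ring
      _ ≤ _ := mul_le_mul_of_nonneg_left e3 hd0

end

end Vale.Agent.P207.Q
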